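import Vale.Agent.P343.Rep

/-! The induction over levels. -/

namespace Vale.Agent.P343

open Set Diag

/-- The points of one level: a cycle for each prime, and one more point. -/
abbrev Lv {ι : Type} (p : ι → ℕ) : Type := Option (Σ k : ι, ZMod (p k))

/-- All points. -/
abbrev Pt {ι : Type} (p : ι → ℕ) (s : ℕ) : Type := Fin (s + 1) × Lv p

/-- Rotation of all cycles by `e`. -/
def shift {ι : Type} (p : ι → ℕ) (e : ℕ) : Lv p → Lv p :=
  Option.map fun y => ⟨y.1, y.2 + (e : ZMod (p y.1))⟩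

theorem shift_shift {ι : Type} (p : ι → ℕ) (e e' : ℕ) (x : Lv p) :
    shift p e' (shift p e x) = shift p (e + e') x := by
  rcases x with _ | ⟨k, a⟩
  · rfl
  · simp [shift, add_assoc]

theorem shift_zero {ι : Type} (p : ι → ℕ) (e : ℕ) (he : ∀ k, p k ∣ e) (x : Lv p) :
    shift p e x = x := by
  rcases x with _ | ⟨k, a⟩
  · rfl
  · simp [shift, (ZMod.natCast_eq_zero_iff e (p k)).2 (he k)]

/-- Rotation on level `l`. -/
def rot {ι : Type} (p : ι → ℕ) (s l e : ℕ) (x : Pt p s) : Pt p s :=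
  (x.1, if x.1.val = l then shift p e x.2 else x.2)

theorem rot_iterate {ι : Type} (p : ι → ℕ) (s l e : ℕ) (x : Pt p s) :
    (rot p s l 1)^[e] x = rot p s l e x := by
  induction e with
  | zero =>
    simp only [Function.iterate_zero, id_eq, rot]
    rw [shift_zero p 0 (fun k => dvd_zero _)]
    simp
  | succ e ih =>
    rw [Function.iterate_succ_apply', ih]
    simp only [rot]
    split_ifs with h
    · rw [shift_shift]
    · rfl

theorem levels {ι : Type} [Fintype ι] (p : ι → ℕ) (hp : ∀ k, (p k).Prime)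
    (hinj : Function.Injective p) (P t s : ℕ) (hP : ∀ k, P ≤ p k) (hP1 : 1 < P)
    (hι : Fintype.card ι = 16 * (t + 1)) (l : ℕ) (hl : l ≤ s) :
    ∀ (α β : Pt p s), l ≤ α.1.val → l ≤ β.1.val → α ≠ β →
    ∀ (V : Type) [Finite V], Nat.card V < P ^ (t + 1) →
    ∀ (ρ : Rep (insert α (insert β {x : Pt p s | x.1.val < l})) V) (z : Diag V V),
      ρ.N z (ext1 (insert α (insert β {x : Pt p s | x.1.val < l})) {α} β) →
      2 ^ l ≤ z.supp.ncard := by
  classical
  haveI : Nonempty ι := Fintype.card_pos_iff.1 (by omega)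
  induction l with
  | zero =>
    intro α β _ _ hαβ V _ _ ρ z hz
    rw [pow_zero, Nat.one_le_iff_ne_zero]
    intro h0
    rw [Set.ncard_eq_zero (Set.toFinite _)] at h0
    rw [z.eq_one_of_supp_empty h0] at hz
    have h1 := ρ.func hz ρ.one
    have h2 : idOn (insert α (insert β {x : Pt p s | x.1.val < 0})) α β := by
      rw [← h1]
      exact Or.inr ⟨rfl, rfl⟩
    exact hαβ h2.2
  | succ l ih =>
    intro α β hα hβ hαβ V _ hV ρ z hz
    let lv : Fin (s + 1) := ⟨l, by omega⟩
    obtain ⟨k, V', hV', ρ', z', hle, hz', hcount⟩ :=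
      step (K := {x : Pt p s | x.1.val < l + 1}) (K0 := {x : Pt p s | x.1.val < l})
        (j := (lv, none)) p hp hinj P t hP hP1 hV
        (by simpa using hα) (by simpa using hβ) hαβ
        (fun k => (lv, some ⟨k, 0⟩)) (rot p s l 1) (fun x hx => hx) (∏ k, p k)
        (Finset.prod_pos fun k _ => (hp k).pos)
        (by
          intro x _
          rw [rot_iterate]
          simp only [rot]
          rw [shift_zero p _ (fun k => Finset.dvd_prod_of_mem p (Finset.mem_univ k))]
          simp)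
        (fun k => by simp [lv]) (by simp [lv]) (fun k => by simp)
        (by simp [rot, shift]) (fun x hx => Nat.lt_succ_of_lt hx)
        (by
          intro x hx
          have : x.1.val ≠ l := ne_of_lt hx
          simp [rot, this])
        (fun k => by simp [lv])
        (by
          intro k k' e h
          rw [rot_iterate] at h
          simp only [rot, lv, if_true, shift, Option.map_some, Prod.mk.injEq, true_and,
            Option.some.injEq, Sigma.mk.injEq] at h
          obtain ⟨rfl, h⟩ := h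
          have h' := eq_of_heq h
          rw [zero_add] at h'
          exact (ZMod.natCast_eq_zero_iff e (p k)).1 h')
        ρ z hz
    have := ih (by omega) (lv, some ⟨k, 0⟩) (lv, none) le_rfl le_rfl (by simp) V'
      (lt_of_le_of_lt hle hV) ρ' z' hz'
    rw [hι] at hcount
    have h1 : 16 * (t + 1) * 2 ^ l ≤ 8 * (t + 1) * z.supp.ncard :=
      calc 16 * (t + 1) * 2 ^ l ≤ 16 * (t + 1) * z'.supp.ncard := Nat.mul_le_mul_left _ this
        _ ≤ 8 * t * z.supp.ncard := hcount
        _ ≤ 8 * (t + 1) * z.supp.ncard := by gcongr; omega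
    have h2 : 8 * (t + 1) * 2 ^ (l + 1) ≤ 8 * (t + 1) * z.supp.ncard := by
      calc 8 * (t + 1) * 2 ^ (l + 1) = 16 * (t + 1) * 2 ^ l := by ring
        _ ≤ _ := h1
    exact Nat.le_of_mul_le_mul_left h2 (by omega)

theorem rep_lower_bound {ι : Type} [Fintype ι] (p : ι → ℕ) (hp : ∀ k, (p k).Prime)
    (hinj : Function.Injective p) (P t s : ℕ) (hP : ∀ k, P ≤ p k) (hP1 : 1 < P)
    (hι : Fintype.card ι = 16 * (t + 1)) (V : Type) [Finite V] (hV : Nat.card V < P ^ (t + 1))
    (ρ : Rep (univ : Set (Pt p s)) V) : 2 ^ s ≤ Nat.card V := by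
  classical
  obtain ⟨k⟩ : Nonempty ι := Fintype.card_pos_iff.1 (by omega)
  let α : Pt p s := (Fin.last s, none)
  let β : Pt p s := (Fin.last s, some ⟨k, 0⟩)
  obtain ⟨V', hV', ρ', -, -, hle, -, -⟩ :=
    ρ.restrict (subset_univ (insert α (insert β {x : Pt p s | x.1.val < s})))
  obtain ⟨z, hz⟩ := ρ'.surj (ext1 (insert α (insert β {x : Pt p s | x.1.val < s})) {α} β) (by
    rintro x y (⟨h, rfl⟩ | ⟨rfl, rfl⟩)
    · exact ⟨h, h⟩
    · exact ⟨mem_insert _ _, mem_insert_of_mem _ (mem_insert _ _)⟩)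
  have := levels p hp hinj P t s hP hP1 hι s le_rfl α β le_rfl le_rfl (by simp [α, β]) V'
    (lt_of_le_of_lt hle hV) ρ' z hz
  exact this.trans ((Set.ncard_le_card _).trans hle)

theorem exists_primes (P : ℕ) (hP : 0 < P) (m : ℕ) :
    ∃ S : Finset ℕ, S.card = m ∧ ∀ q ∈ S, q.Prime ∧ P ≤ q ∧ q ≤ 2 ^ m * P := by
  induction m with
  | zero => exact ⟨∅, rfl, by simp⟩
  | succ m ih =>
    obtain ⟨S, hS, h⟩ := ih
    obtain ⟨q, hq, h1, h2⟩ := Nat.exists_prime_lt_and_le_two_mul (2 ^ m * P) (by positivity)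
    have hnot : q ∉ S := fun hq' => absurd (h q hq').2.2 (not_le.2 h1)
    refine ⟨insert q S, by rw [Finset.card_insert_of_notMem hnot, hS], ?_⟩
    intro r hr
    have h3 : P ≤ 2 ^ m * P := Nat.le_mul_of_pos_left _ (by positivity)
    rcases Finset.mem_insert.1 hr with rfl | hr
    · refine ⟨hq, by omega, ?_⟩
      rw [pow_succ]
      linarith
    · refine ⟨(h r hr).1, (h r hr).2.1, (h r hr).2.2.trans ?_⟩
      rw [pow_succ]
      linarith

/-- For every degree and constant there is a finite set of points all of whose representations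
are large. -/
theorem exists_hard (C d : ℕ) : ∃ (H : Type) (_ : Finite H), Nonempty H ∧
    ∀ (V : Type) [Finite V], Rep (univ : Set H) V → C * (Nat.card H + 3) ^ d < Nat.card V := by
  classical
  let t := 2 * d
  let m := 16 * (t + 1)
  let c := (t + 2) * (1 + m * 2 ^ m) + 3
  let j := C * c ^ d + 1
  let P := 2 ^ j
  let s := j * (t + 1)
  have hjP : j < P := Nat.lt_two_pow_self
  have hj1 : 1 ≤ j := by omega
  have hP1 : 1 < P := by omega
  obtain ⟨S, hS, hq⟩ := exists_primes P (by omega) m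
  let p : S → ℕ := Subtype.val
  haveI : ∀ k : S, NeZero (p k) := fun k => ⟨(hq k k.2).1.ne_zero⟩
  refine ⟨Pt p s, inferInstance, ⟨(0, none)⟩, ?_⟩
  intro V _ ρ
  have hcard : Nat.card (Pt p s) + 3 ≤ c * P ^ 2 := by
    have h1 : Nat.card (Pt p s) = (s + 1) * (∑ k : S, p k + 1) := by
      simp [Nat.card_eq_fintype_card, ZMod.card]
    have h2 : ∑ k : S, p k ≤ m * (2 ^ m * P) := by
      calc ∑ k : S, p k ≤ ∑ _k : S, 2 ^ m * P := Finset.sum_le_sum fun k _ => (hq k k.2).2.2
        _ = m * (2 ^ m * P) := by simp [hS]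
    have h3 : s + 1 ≤ (t + 2) * P := by
      have : j * (t + 1) ≤ P * (t + 1) := Nat.mul_le_mul_right _ hjP.le
      calc s + 1 = j * (t + 1) + 1 := rfl
        _ ≤ P * (t + 1) + P := by omega
        _ = (t + 2) * P := by ring
    have h4 : ∑ k : S, p k + 1 ≤ (1 + m * 2 ^ m) * P := by
      calc ∑ k : S, p k + 1 ≤ m * (2 ^ m * P) + P := by omega
        _ = (1 + m * 2 ^ m) * P := by ring
    have h5 : 3 ≤ 3 * P ^ 2 := Nat.le_mul_of_pos_right _ (by positivity)
    calc Nat.card (Pt p s) + 3 = (s + 1) * (∑ k : S, p k + 1) + 3 := by rw [h1]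
      _ ≤ ((t + 2) * P) * ((1 + m * 2 ^ m) * P) + 3 * P ^ 2 :=
          add_le_add (Nat.mul_le_mul h3 h4) h5
      _ = c * P ^ 2 := by simp only [c]; ring
  have hbig : C * (Nat.card (Pt p s) + 3) ^ d < P ^ (t + 1) := by
    calc C * (Nat.card (Pt p s) + 3) ^ d ≤ C * (c * P ^ 2) ^ d :=
          Nat.mul_le_mul_left _ (Nat.pow_le_pow_left hcard d)
      _ = (C * c ^ d) * P ^ t := by rw [mul_pow, ← pow_mul, mul_assoc]
      _ < P * P ^ t := Nat.mul_lt_mul_of_pos_right (by omega) (by positivity)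
      _ = P ^ (t + 1) := by ring
  by_contra hcon
  have hV : Nat.card V < P ^ (t + 1) := lt_of_le_of_lt (not_lt.1 hcon) hbig
  have := rep_lower_bound p (fun k => (hq k k.2).1) Subtype.val_injective P t s
    (fun k => (hq k k.2).2.1) hP1 (by simp [hS, m]) V hV ρ
  have h6 : P ^ (t + 1) = 2 ^ s := by simp only [P, s]; rw [← pow_mul]
  omega

end Vale.Agent.P343
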