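import Vale.Agent.P343.Defs
import Vale.Agent.P343.Levels

/-! From a two-way deterministic automaton to a monoid of partition diagrams. -/

namespace Vale.Agent.P343

open Set Diag

variable {A Q : Type}

/-- Invariance of a colouring of configurations at one tape cell. -/
def Cell (M : TwoNFA A Q) (s : Sym A) (here lft rgt : Q → Prop) (star : Prop) : Prop :=
  (∀ q ∈ M.acc, here q ↔ star) ∧ ∀ q, q ∉ M.acc → ∀ q',
    ((q', Move.left) ∈ M.trans q s → (here q ↔ lft q')) ∧
    ((q', Move.stay) ∈ M.trans q s → (here q ↔ here q')) ∧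
    ((q', Move.right) ∈ M.trans q s → (here q ↔ rgt q'))

theorem Cell.congr {M : TwoNFA A Q} {s : Sym A} {here lft rgt here' lft' rgt' : Q → Prop}
    {star star' : Prop} (h : Cell M s here lft rgt star) (h1 : ∀ q, here q ↔ here' q)
    (h2 : s = Sym.lend ∨ ∀ q, lft q ↔ lft' q) (h3 : s = Sym.rend ∨ ∀ q, rgt q ↔ rgt' q)
    (h4 : star ↔ star') : Cell M s here' lft' rgt' star' := by
  refine ⟨fun q hq => by rw [← h1, ← h4]; exact h.1 q hq, fun q hq q' => ⟨?_, ?_, ?_⟩⟩
  · intro ht
    rcases h2 with rfl | h2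
    · exact absurd ht (M.not_left_lend _ _)
    · rw [← h1, ← h2]
      exact (h.2 q hq q').1 ht
  · intro ht
    rw [← h1, ← h1]
    exact (h.2 q hq q').2.1 ht
  · intro ht
    rcases h3 with rfl | h3
    · exact absurd ht (M.not_right_rend _ _)
    · rw [← h1, ← h3]
      exact (h.2 q hq q').2.2 ht

/-- Invariance of a colouring of configurations on the whole tape. -/
def Global (M : TwoNFA A Q) (w : List A) (c : Q × ℕ → Prop) (star : Prop) : Prop :=
  ∀ i ≤ w.length + 1, Cell M (tape w i) (fun q => c (q, i)) (fun q => c (q, i - 1))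
    (fun q => c (q, i + 1)) star

theorem tape_zero (w : List A) : tape w 0 = Sym.lend := by simp [tape]

theorem tape_last (w : List A) : tape w (w.length + 1) = Sym.rend := by simp [tape]

theorem tape_succ (w : List A) (i : ℕ) (h : i < w.length) : tape w (i + 1) = Sym.letter w[i] := by
  simp [tape, h]

theorem step_le (M : TwoNFA A Q) (w : List A) {c c' : Q × ℕ} (h : M.Step w c c')
    (hc : c.2 ≤ w.length + 1) : c'.2 ≤ w.length + 1 := by
  rcases h with ⟨-, h⟩ | ⟨-, h⟩ | ⟨h1, h⟩
  · omega
  · omega
  · by_contra hcon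
    have : c.2 = w.length + 1 := by omega
    rw [this, tape_last] at h1
    exact M.not_right_rend _ _ h1

theorem accepts_iff_global (M : TwoNFA A Q) (hM : M.IsDet) (w : List A) :
    M.Accepts w ↔ ∀ c star, Global M w c star → (c (M.init, 0) ↔ star) := by
  constructor
  · rintro ⟨c0, hc0, hpath⟩ c star hG
    have key : ∀ x : Q × ℕ, Relation.ReflTransGen (M.Step w) x c0 → x.2 ≤ w.length + 1 →
        (c x ↔ star) := by
      intro x hx
      induction hx using Relation.ReflTransGen.head_induction_on with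
      | refl => exact fun h => (hG _ h).1 _ hc0
      | @head x y hxy _ ih =>
        intro h
        by_cases hacc : x.1 ∈ M.acc
        · exact (hG _ h).1 _ hacc
        rw [← ih (step_le M w hxy h)]
        obtain ⟨q', i'⟩ := y
        obtain ⟨h1, h2, h3⟩ := (hG _ h).2 x.1 hacc q'
        rcases hxy with ⟨ht, hi⟩ | ⟨ht, hi⟩ | ⟨ht, hi⟩
        · have : i' = x.2 - 1 := by simp only at hi; omega
          rw [this]
          exact h1 ht
        · have : i' = x.2 := hi
          rw [this]
          exact h2 ht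
        · have : i' = x.2 + 1 := hi
          rw [this]
          exact h3 ht
    exact key _ hpath (Nat.zero_le _)
  · intro h
    let c : Q × ℕ → Prop := fun x => ∃ c0 : Q × ℕ, c0.1 ∈ M.acc ∧
      Relation.ReflTransGen (M.Step w) x c0
    have hstep : ∀ x y : Q × ℕ, x.1 ∉ M.acc → M.Step w x y → (c x ↔ c y) := by
      intro x y hx hxy
      constructor
      · rintro ⟨c0, hc0, hpath⟩
        rcases hpath.cases_head with rfl | ⟨y', hxy', hpath'⟩
        · exact absurd hc0 hx
        · have : y' = y := by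
            rcases hxy with ⟨ht, hi⟩ | ⟨ht, hi⟩ | ⟨ht, hi⟩ <;>
            rcases hxy' with ⟨ht', hi'⟩ | ⟨ht', hi'⟩ | ⟨ht', hi'⟩ <;>
            have := hM _ _ ht ht' <;>
            simp only [Prod.mk.injEq, reduceCtorEq, and_false, and_true] at this <;>
            exact Prod.ext this.symm (by omega)
          exact ⟨c0, hc0, this ▸ hpath'⟩
      · rintro ⟨c0, hc0, hpath⟩
        exact ⟨c0, hc0, hpath.head hxy⟩
    refine (h c True ?_).2 trivial
    intro i _
    refine ⟨fun q hq => iff_true_intro ⟨(q, i), hq, Relation.ReflTransGen.refl⟩,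
      fun q hq q' => ⟨fun ht => ?_, fun ht => ?_, fun ht => ?_⟩⟩
    · have hi : i ≠ 0 := by
        rintro rfl
        rw [tape_zero] at ht
        exact M.not_left_lend _ _ ht
      exact hstep (q, i) (q', i - 1) hq (Or.inl ⟨ht, by simp only; omega⟩)
    · exact hstep (q, i) (q', i) hq (Or.inr (Or.inl ⟨ht, rfl⟩))
    · exact hstep (q, i) (q', i + 1) hq (Or.inr (Or.inr ⟨ht, rfl⟩))

/-- The points on a cut between two cells. -/
abbrev Cut (Q : Type) : Type := Option (Q ⊕ Q)

/-- The diagram of a letter. -/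
def letterDiag (M : TwoNFA A Q) (a : A) : Diag (Cut Q) (Cut Q) where
  rel f g := (∀ q, some (Sum.inl q) ∈ f ↔ some (Sum.inr q) ∈ g) ∧ (none ∈ f ↔ none ∈ g) ∧
    Cell M (Sym.letter a) (fun q => some (Sum.inl q) ∈ f) (fun q => some (Sum.inr q) ∈ f)
      (fun q => some (Sum.inl q) ∈ g) (none ∈ f)
  compl := by
    rintro f g ⟨h1, h2, h3, h4⟩
    refine ⟨fun q => not_congr (h1 q), not_congr h2, fun q hq => not_congr (h3 q hq),
      fun q hq q' => ⟨fun ht => not_congr ((h4 q hq q').1 ht),
        fun ht => not_congr ((h4 q hq q').2.1 ht), fun ht => not_congr ((h4 q hq q').2.2 ht)⟩⟩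
  iInter := by
    intro ι F G h
    simp only [mem_iInter]
    exact ⟨fun q => forall_congr' fun i => (h i).1 q, forall_congr' fun i => (h i).2.1,
      fun q hq => forall_congr' fun i => (h i).2.2.1 q hq,
      fun q hq q' => ⟨fun ht => forall_congr' fun i => ((h i).2.2.2 q hq q').1 ht,
        fun ht => forall_congr' fun i => ((h i).2.2.2 q hq q').2.1 ht,
        fun ht => forall_congr' fun i => ((h i).2.2.2 q hq q').2.2 ht⟩⟩

/-- The diagram of a word. -/
def wordDiag (M : TwoNFA A Q) (w : List A) : Diag (Cut Q) (Cut Q) := (w.map (letterDiag M)).prod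

theorem wordDiag_append (M : TwoNFA A Q) (u v : List A) :
    wordDiag M (u ++ v) = wordDiag M u * wordDiag M v := by
  simp [wordDiag]

theorem wordDiag_rel (M : TwoNFA A Q) (w : List A) (f g : Set (Cut Q)) :
    (wordDiag M w).rel f g ↔ ∃ F : ℕ → Set (Cut Q), F 0 = f ∧ F w.length = g ∧
      ∀ i (h : i < w.length), (letterDiag M w[i]).rel (F i) (F (i + 1)) := by
  induction w generalizing f with
  | nil =>
    constructor
    · intro h
      have : f = g := Set.ext h
      exact ⟨fun _ => f, rfl, this, fun i h => absurd h (Nat.not_lt_zero _)⟩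
    · rintro ⟨F, rfl, rfl, -⟩ x
      exact Iff.rfl
  | cons a w ih =>
    have : wordDiag M (a :: w) = (letterDiag M a).comp (wordDiag M w) := by
      simp [wordDiag, mul_def]
    rw [this]
    constructor
    · rintro ⟨k, h1, h2⟩
      obtain ⟨F, rfl, rfl, hF⟩ := (ih k).1 h2
      refine ⟨fun i => Nat.casesOn i f F, rfl, rfl, ?_⟩
      rintro (_ | i) h
      · exact h1
      · exact hF i (by simpa using h)
    · rintro ⟨F, rfl, rfl, hF⟩
      refine ⟨F 1, hF 0 (by simp), (ih _).2 ⟨fun i => F (i + 1), rfl, rfl, fun i h => ?_⟩⟩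
      exact hF (i + 1) (by simpa using h)

theorem accepts_iff_diag (M : TwoNFA A Q) (hM : M.IsDet) (w : List A) :
    M.Accepts w ↔ ∀ f g, (wordDiag M w).rel f g →
      Cell M Sym.lend (fun q => some (Sum.inr q) ∈ f) (fun _ => True)
        (fun q => some (Sum.inl q) ∈ f) (none ∈ f) →
      Cell M Sym.rend (fun q => some (Sum.inl q) ∈ g) (fun q => some (Sum.inr q) ∈ g)
        (fun _ => True) (none ∈ g) →
      (some (Sum.inr M.init) ∈ f ↔ none ∈ f) := by
  rw [accepts_iff_global M hM]
  constructor
  · intro h f g hfg hL hR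
    obtain ⟨F, rfl, rfl, hF⟩ := (wordDiag_rel M w f g).1 hfg
    let c : Q × ℕ → Prop := fun x =>
      if x.2 ≤ w.length then some (Sum.inr x.1) ∈ F x.2 else some (Sum.inl x.1) ∈ F w.length
    have hc1 : ∀ q i, i ≤ w.length → (c (q, i) ↔ some (Sum.inr q) ∈ F i) := by
      intro q i hi
      simp only [c, hi, if_true]
    have hc2 : ∀ q i, i ≤ w.length → (c (q, i + 1) ↔ some (Sum.inl q) ∈ F i) := by
      intro q i hi
      rcases hi.lt_or_eq with hi | rfl
      · rw [hc1 q (i + 1) hi]
        exact ((hF i hi).1 q).symm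
      · simp [c]
    have hstar : ∀ i, i ≤ w.length → (none ∈ F i ↔ none ∈ F 0) := by
      intro i hi
      induction i with
      | zero => exact Iff.rfl
      | succ i ih => rw [← ih (by omega)]; exact (hF i hi).2.1.symm
    rw [← hc1 _ 0 (Nat.zero_le _)]
    apply h
    rintro (_ | i) hi
    · rw [tape_zero]
      exact hL.congr (fun q => (hc1 q 0 (Nat.zero_le _)).symm) (Or.inl rfl)
        (Or.inr fun q => (hc2 q 0 (Nat.zero_le _)).symm) Iff.rfl
    · have hi' : i ≤ w.length := by omega
      rcases hi'.lt_or_eq with hi' | rfl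
      · rw [tape_succ w i hi']
        exact (hF i hi').2.2.congr (fun q => (hc2 q i hi'.le).symm)
          (Or.inr fun q => (hc1 q i hi'.le).symm) (Or.inr fun q => (hc2 q (i + 1) hi').symm)
          (hstar i hi'.le)
      · rw [tape_last]
        exact hR.congr (fun q => (hc2 q _ le_rfl).symm) (Or.inr fun q => (hc1 q _ le_rfl).symm)
          (Or.inl rfl) (hstar _ le_rfl)
  · intro h c star hG
    let F : ℕ → Set (Cut Q) := fun i =>
      {x | Option.elim x star (Sum.elim (fun q => c (q, i + 1)) (fun q => c (q, i)))}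
    refine h (F 0) (F w.length) ((wordDiag_rel M w _ _).2 ⟨F, rfl, rfl, fun i hi => ?_⟩) ?_ ?_
    · refine ⟨fun q => Iff.rfl, Iff.rfl, ?_⟩
      have := hG (i + 1) (by omega)
      rw [tape_succ w i hi] at this
      exact this
    · have := hG 0 (Nat.zero_le _)
      rw [tape_zero] at this
      exact this.congr (fun q => Iff.rfl) (Or.inl rfl) (Or.inr fun q => Iff.rfl) Iff.rfl
    · have := hG (w.length + 1) le_rfl
      rw [tape_last] at this
      exact this.congr (fun q => Iff.rfl) (Or.inr fun q => Iff.rfl) (Or.inl rfl) Iff.rfl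

theorem accepts_congr (M : TwoNFA A Q) (hM : M.IsDet) {w w' : List A}
    (h : wordDiag M w = wordDiag M w') (u v : List A) :
    M.Accepts (u ++ w ++ v) ↔ M.Accepts (u ++ w' ++ v) := by
  rw [accepts_iff_diag M hM, accepts_iff_diag M hM]
  simp only [wordDiag_append, h]

variable {H : Type}

/-- The product of a word of relations. -/
def relProd (w : List (H → H → Prop)) : H → H → Prop := w.foldr Relation.Comp Eq

theorem relProd_nil : relProd ([] : List (H → H → Prop)) = Eq := rfl

theorem relProd_cons (a : H → H → Prop) (w : List (H → H → Prop)) :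
    relProd (a :: w) = Relation.Comp a (relProd w) := rfl

theorem relProd_append (u v : List (H → H → Prop)) :
    relProd (u ++ v) = Relation.Comp (relProd u) (relProd v) := by
  induction u with
  | nil => simp [relProd_nil]
  | cons a u ih => rw [List.cons_append, relProd_cons, relProd_cons, ih, Relation.comp_assoc]

theorem relProd_single (a : H → H → Prop) : relProd [a] = a := by
  simp [relProd]

/-- A deterministic automaton for one-way liveness gives a representation. -/
def repOfDet (M : TwoNFA (H → H → Prop) Q) (hM : M.IsDet)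
    (hL : ∀ w, M.Accepts w ↔ ∃ x y, relProd w x y) : Rep (univ : Set H) (Cut Q) where
  N a B := ∃ w, a = wordDiag M w ∧ B = relProd w
  one := ⟨[], rfl, by ext x y; simp [idOn, relProd_nil]⟩
  mul := by
    rintro _ _ _ _ ⟨u, rfl, rfl⟩ ⟨v, rfl, rfl⟩
    exact ⟨u ++ v, (wordDiag_append M u v).symm, (relProd_append u v).symm⟩
  surj := fun B _ => ⟨_, [B], rfl, (relProd_single B).symm⟩
  func := by
    rintro _ _ _ ⟨w, rfl, rfl⟩ ⟨w', h, rfl⟩
    ext x y
    have key : ∀ w : List (H → H → Prop),
        M.Accepts ([fun a b => a = x ∧ b = x] ++ w ++ [fun a b => a = y ∧ b = y]) ↔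
          relProd w x y := by
      intro w
      rw [hL, relProd_append, relProd_append, relProd_single, relProd_single]
      constructor
      · rintro ⟨_, _, _, ⟨_, ⟨-, rfl⟩, h⟩, rfl, -⟩
        exact h
      · intro h
        exact ⟨x, y, y, ⟨x, ⟨rfl, rfl⟩, h⟩, rfl, rfl⟩
    rw [← key, ← key]
    exact accepts_congr M hM h _ _

/-- The one-way nondeterministic automaton for one-way liveness. -/
def owl (H : Type) : TwoNFA (H → H → Prop) (H ⊕ Bool) where
  init := Sum.inr false
  acc := {Sum.inr true}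
  trans q s := {r | (q = Sum.inr false ∧ s = Sym.lend ∧ ∃ x, r = (Sum.inl x, Move.right)) ∨
    (∃ x y a, q = Sum.inl x ∧ s = Sym.letter a ∧ a x y ∧ r = (Sum.inl y, Move.right)) ∨
    (∃ x, q = Sum.inl x ∧ s = Sym.rend ∧ r = (Sum.inr true, Move.stay))}
  not_left_lend := by simp
  not_right_rend := by simp

theorem owl_oneWay (H : Type) : (owl H).IsOneWay := by
  intro q s q'
  simp [owl]

theorem owl_accepts (w : List (H → H → Prop)) : (owl H).Accepts w ↔ ∃ x y, relProd w x y := by
  have htake : ∀ i (h : i < w.length), relProd (w.take (i + 1)) =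
      Relation.Comp (relProd (w.take i)) w[i] := by
    intro i h
    rw [List.take_add_one, relProd_append, List.getElem?_eq_getElem h]
    simp [relProd_single]
  constructor
  · rintro ⟨c0, hc0, hpath⟩
    have key : ∀ c : (H ⊕ Bool) × ℕ,
        Relation.ReflTransGen ((owl H).Step w) (Sum.inr false, 0) c →
        c = (Sum.inr false, 0) ∨
        (∃ i x y, i ≤ w.length ∧ c = (Sum.inl y, i + 1) ∧ relProd (w.take i) x y) ∨
        (c.1 = Sum.inr true ∧ ∃ x y, relProd w x y) := by
      intro c hc
      induction hc with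
      | refl => exact Or.inl rfl
      | @tail b c _ hbc ih =>
        obtain ⟨q', i'⟩ := c
        rcases ih with rfl | ⟨i, x, y, hi, rfl, hxy⟩ | ⟨h1, h2⟩
        · rcases hbc with ⟨ht, -⟩ | ⟨ht, -⟩ | ⟨ht, hi'⟩
          · simp [owl] at ht
          · simp [owl] at ht
          · simp only [owl, tape_zero, mem_setOf_eq, true_and, Prod.mk.injEq, and_true,
              reduceCtorEq, false_and, exists_false, or_false] at ht
            obtain ⟨x, rfl⟩ := ht
            refine Or.inr (Or.inl ⟨0, x, x, Nat.zero_le _, ?_, rfl⟩)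
            simp only at hi'
            rw [hi']
        · rcases hi.lt_or_eq with hi | rfl
          · rcases hbc with ⟨ht, -⟩ | ⟨ht, -⟩ | ⟨ht, hi'⟩
            · simp [owl] at ht
            · simp [owl, tape_succ w i hi] at ht
            · simp only [owl, tape_succ w i hi, mem_setOf_eq, reduceCtorEq, false_and,
                Sum.inl.injEq, Sym.letter.injEq, Prod.mk.injEq, and_true, and_false,
                exists_false, or_false, false_or] at ht
              obtain ⟨_, y', _, rfl, rfl, h1, rfl⟩ := ht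
              refine Or.inr (Or.inl ⟨i + 1, x, y', hi, ?_, ?_⟩)
              · simp only at hi'
                rw [hi']
              · rw [htake i hi]
                exact ⟨y, hxy, h1⟩
          · rcases hbc with ⟨ht, -⟩ | ⟨ht, -⟩ | ⟨ht, -⟩
            · simp [owl] at ht
            · simp only [owl, tape_last, mem_setOf_eq, reduceCtorEq, false_and, and_false,
                exists_false, Sum.inl.injEq, Prod.mk.injEq, and_true, true_and, false_or] at ht
              obtain ⟨_, -, rfl⟩ := ht
              rw [List.take_length] at hxy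
              exact Or.inr (Or.inr ⟨rfl, x, y, hxy⟩)
            · simp [owl, tape_last] at ht
        · rcases hbc with ⟨ht, -⟩ | ⟨ht, -⟩ | ⟨ht, -⟩ <;> simp [owl, h1] at ht
    have hc0' : c0.1 = Sum.inr true := hc0
    rcases key c0 hpath with rfl | ⟨i, x, y, -, rfl, -⟩ | ⟨-, h⟩
    · simp at hc0'
    · simp at hc0'
    · exact h
  · rintro ⟨x, y, hxy⟩
    have key : ∀ i ≤ w.length, ∀ y, relProd (w.take i) x y →
        Relation.ReflTransGen ((owl H).Step w) (Sum.inr false, 0) (Sum.inl y, i + 1) := by
      intro i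
      induction i with
      | zero =>
        intro _ y h
        have : x = y := h
        subst this
        refine Relation.ReflTransGen.single (Or.inr (Or.inr ⟨?_, rfl⟩))
        simp [owl, tape_zero]
      | succ i ih =>
        intro hi y h
        rw [htake i hi] at h
        obtain ⟨z, h1, h2⟩ := h
        refine (ih (by omega) z h1).tail (Or.inr (Or.inr ⟨?_, rfl⟩))
        simp only [owl, tape_succ w i hi, mem_setOf_eq]
        exact Or.inr (Or.inl ⟨z, y, _, rfl, rfl, h2, rfl⟩)
    refine ⟨(Sum.inr true, w.length + 1), rfl, ?_⟩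
    refine (key w.length le_rfl y (by rwa [List.take_length])).tail (Or.inr (Or.inl ⟨?_, rfl⟩))
    simp [owl, tape_last]

theorem poly_bound (p : Polynomial ℝ) :
    ∃ C d : ℕ, ∀ n : ℕ, 2 * p.eval (n : ℝ) + 1 ≤ (C * (n + 1) ^ d : ℕ) := by
  obtain ⟨C, hC⟩ := exists_nat_ge (∑ i ∈ Finset.range (p.natDegree + 1), |p.coeff i|)
  refine ⟨2 * C + 1, p.natDegree, fun n => ?_⟩
  have h1 : (1 : ℝ) ≤ (n : ℝ) + 1 := by
    have : (0 : ℝ) ≤ n := Nat.cast_nonneg n
    linarith
  have h2 : p.eval (n : ℝ) ≤ C * ((n : ℝ) + 1) ^ p.natDegree := by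
    rw [Polynomial.eval_eq_sum_range]
    calc ∑ i ∈ Finset.range (p.natDegree + 1), p.coeff i * (n : ℝ) ^ i
        ≤ ∑ i ∈ Finset.range (p.natDegree + 1), |p.coeff i| * ((n : ℝ) + 1) ^ p.natDegree := by
          refine Finset.sum_le_sum fun i hi => ?_
          have hi' : i ≤ p.natDegree := Nat.lt_succ_iff.1 (Finset.mem_range.1 hi)
          calc p.coeff i * (n : ℝ) ^ i ≤ |p.coeff i| * (n : ℝ) ^ i := by
                gcongr
                exact le_abs_self _
            _ ≤ |p.coeff i| * ((n : ℝ) + 1) ^ i := by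
                gcongr
                linarith
            _ ≤ |p.coeff i| * ((n : ℝ) + 1) ^ p.natDegree := by
                gcongr
      _ = (∑ i ∈ Finset.range (p.natDegree + 1), |p.coeff i|) * ((n : ℝ) + 1) ^ p.natDegree := by
          rw [Finset.sum_mul]
      _ ≤ C * ((n : ℝ) + 1) ^ p.natDegree := by gcongr
  have h3 : (1 : ℝ) ≤ ((n : ℝ) + 1) ^ p.natDegree := one_le_pow₀ h1
  push_cast
  nlinarith

theorem no_poly_oneWay : ¬ ∃ p : Polynomial ℝ, ∀ (A Q : Type) [Fintype A] [Fintype Q]
    (M : TwoNFA A Q), M.IsOneWay → ∃ (Q' : Type) (_ : Fintype Q') (D : TwoNFA A Q'),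
      D.IsDet ∧ (Fintype.card Q' : ℝ) ≤ p.eval (Fintype.card Q : ℝ) ∧
      ∀ w : List A, D.Accepts w ↔ M.Accepts w := by
  classical
  rintro ⟨p, hp⟩
  obtain ⟨C, d, hC⟩ := poly_bound p
  obtain ⟨H, hH, -, hhard⟩ := exists_hard C d
  have := Fintype.ofFinite H
  obtain ⟨Q', hQ', D, hD, hcard, hL⟩ := hp (H → H → Prop) (H ⊕ Bool) (owl H) (owl_oneWay H)
  have h1 := hhard (Cut Q') (repOfDet D hD fun w => (hL w).trans (owl_accepts w))
  have h2 := hC (Fintype.card (H ⊕ Bool))
  have h3 : Nat.card (Cut Q') = 2 * Fintype.card Q' + 1 := by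
    simp [Nat.card_eq_fintype_card, two_mul]
  have h4 : Fintype.card (H ⊕ Bool) + 1 = Nat.card H + 3 := by
    simp [Nat.card_eq_fintype_card]
  rw [h4] at h2
  rw [h3] at h1
  have h5 : ((C * (Nat.card H + 3) ^ d : ℕ) : ℝ) < (2 * Fintype.card Q' + 1 : ℕ) := by
    exact_mod_cast h1
  push_cast at h5 h2
  linarith

end Vale.Agent.P343
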