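import Mathlib.Logic.Relation
import Mathlib.Data.Set.Subsingleton

namespace Vale.Agent.P343

/-- Tape symbols: the left endmarker, the right endmarker, and the letters of the alphabet `A`. -/
inductive Sym (A : Type) : Type where
  | lend : Sym A
  | rend : Sym A
  | letter : A → Sym A

/-- Head moves. -/
inductive Move : Type where
  | left : Move
  | stay : Move
  | right : Move

/-- A two-way nondeterministic finite automaton with alphabet `A` and state set `Q`.
`trans q s` is the set of pairs (new state, head move) allowed in state `q` scanning `s`;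
the head never moves beyond an endmarker. -/
structure TwoNFA (A Q : Type) : Type where
  init : Q
  acc : Set Q
  trans : Q → Sym A → Set (Q × Move)
  not_left_lend : ∀ q q' : Q, (q', Move.left) ∉ trans q Sym.lend
  not_right_rend : ∀ q q' : Q, (q', Move.right) ∉ trans q Sym.rend

/-- The tape holding `w` between the endmarkers: cell `0` holds the left endmarker, cells
`1, …, |w|` hold the letters of `w`, cell `|w| + 1` holds the right endmarker. -/
def tape {A : Type} (w : List A) (i : Nat) : Sym A :=
  if i = 0 then Sym.lend else (w[i - 1]?).elim Sym.rend Sym.letter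

/-- One step between configurations (state, head position) on input `w`. -/
def TwoNFA.Step {A Q : Type} (M : TwoNFA A Q) (w : List A) (c c' : Q × Nat) : Prop :=
  ((c'.1, Move.left) ∈ M.trans c.1 (tape w c.2) ∧ c'.2 + 1 = c.2) ∨
  ((c'.1, Move.stay) ∈ M.trans c.1 (tape w c.2) ∧ c'.2 = c.2) ∨
  ((c'.1, Move.right) ∈ M.trans c.1 (tape w c.2) ∧ c'.2 = c.2 + 1)

/-- `w` is accepted if some finite computation from the initial state on the left endmarker
reaches an accepting state. -/
def TwoNFA.Accepts {A Q : Type} (M : TwoNFA A Q) (w : List A) : Prop :=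
  ∃ c : Q × Nat, c.1 ∈ M.acc ∧ Relation.ReflTransGen (M.Step w) (M.init, 0) c

/-- Deterministic: at most one transition for each state and symbol. -/
def TwoNFA.IsDet {A Q : Type} (M : TwoNFA A Q) : Prop :=
  ∀ (q : Q) (s : Sym A), (M.trans q s).Subsingleton

/-- One-way: the head never moves left. -/
def TwoNFA.IsOneWay {A Q : Type} (M : TwoNFA A Q) : Prop :=
  ∀ (q : Q) (s : Sym A) (q' : Q), (q', Move.left) ∉ M.trans q s

end Vale.Agent.P343
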