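import Mathlib

/-! Partition diagrams, presented through their invariant colourings. -/

namespace Vale.Agent.P343

open Set

/-- A partition of `V ⊕ W`, given by the pairs of sets whose union is a union of blocks. -/
@[ext] structure Diag (V W : Type) where
  rel : Set V → Set W → Prop
  compl : ∀ {f g}, rel f g → rel fᶜ gᶜ
  iInter : ∀ {ι : Type} (F : ι → Set V) (G : ι → Set W),
    (∀ i, rel (F i) (G i)) → rel (⋂ i, F i) (⋂ i, G i)

namespace Diag

variable {U V W X : Type}

theorem rel_iUnion (a : Diag V W) {ι : Type} (F : ι → Set V) (G : ι → Set W)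
    (h : ∀ i, a.rel (F i) (G i)) : a.rel (⋃ i, F i) (⋃ i, G i) := by
  have := a.compl (a.iInter (fun i => (F i)ᶜ) (fun i => (G i)ᶜ) (fun i => a.compl (h i)))
  simpa [compl_iInter] using this

theorem rel_inter (a : Diag V W) {f f' : Set V} {g g' : Set W} (h : a.rel f g)
    (h' : a.rel f' g') : a.rel (f ∩ f') (g ∩ g') := by
  have := a.iInter (ι := Bool) (fun b => cond b f f') (fun b => cond b g g')
    (by rintro (_ | _) <;> simpa)
  simpa [← inter_eq_iInter] using this

theorem rel_diff (a : Diag V W) {f f' : Set V} {g g' : Set W} (h : a.rel f g)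
    (h' : a.rel f' g') : a.rel (f \ f') (g \ g') :=
  a.rel_inter h (a.compl h')

theorem rel_union (a : Diag V W) {f f' : Set V} {g g' : Set W} (h : a.rel f g)
    (h' : a.rel f' g') : a.rel (f ∪ f') (g ∪ g') := by
  have := a.compl (a.rel_inter (a.compl h) (a.compl h'))
  simpa [compl_inter] using this

/-- Composition of diagrams. -/
def comp (a : Diag U V) (b : Diag V W) : Diag U W where
  rel f h := ∃ g, a.rel f g ∧ b.rel g h
  compl := by
    rintro f h ⟨g, h1, h2⟩
    exact ⟨gᶜ, a.compl h1, b.compl h2⟩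
  iInter := by
    intro ι F G h
    choose g h1 h2 using h
    exact ⟨⋂ i, g i, a.iInter _ _ h1, b.iInter _ _ h2⟩

theorem comp_assoc (a : Diag U V) (b : Diag V W) (c : Diag W X) :
    (a.comp b).comp c = a.comp (b.comp c) := by
  ext f h
  constructor
  · rintro ⟨g, ⟨k, h1, h2⟩, h3⟩
    exact ⟨k, h1, g, h2, h3⟩
  · rintro ⟨k, h1, g, h2, h3⟩
    exact ⟨g, ⟨k, h1, h2⟩, h3⟩

/-- The diagram of a bijection. -/
def ofEquiv (π : V ≃ W) : Diag V W where
  rel f g := ∀ x, x ∈ f ↔ π x ∈ g
  compl := by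
    intro f g h x
    simp [h x]
  iInter := by
    intro ι F G h x
    simp only [mem_iInter]
    exact forall_congr' fun i => h i x

theorem ofEquiv_comp (π : U ≃ V) (σ : V ≃ W) :
    (ofEquiv π).comp (ofEquiv σ) = ofEquiv (π.trans σ) := by
  ext f h
  constructor
  · rintro ⟨g, h1, h2⟩ x
    exact (h1 x).trans (h2 _)
  · intro h
    refine ⟨π.symm ⁻¹' f, fun x => by simp, fun y => ?_⟩
    simpa using h (π.symm y)

theorem id_comp (a : Diag V W) : (ofEquiv (Equiv.refl V)).comp a = a := by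
  ext f h
  constructor
  · rintro ⟨g, h1, h2⟩
    have : f = g := Set.ext h1
    rwa [this]
  · intro h
    exact ⟨f, fun x => Iff.rfl, h⟩

theorem comp_id (a : Diag V W) : a.comp (ofEquiv (Equiv.refl W)) = a := by
  ext f h
  constructor
  · rintro ⟨g, h1, h2⟩
    have : g = h := Set.ext h2
    rwa [← this]
  · intro h'
    exact ⟨h, h', fun x => Iff.rfl⟩

instance : Monoid (Diag V V) where
  mul := comp
  one := ofEquiv (Equiv.refl V)
  mul_assoc := comp_assoc
  one_mul := id_comp
  mul_one := comp_id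

theorem mul_def (a b : Diag V V) : a * b = a.comp b := rfl
theorem one_def : (1 : Diag V V) = ofEquiv (Equiv.refl V) := rfl

theorem one_comp (a : Diag V W) : (1 : Diag V V).comp a = a := id_comp a
theorem comp_one (a : Diag V W) : a.comp (1 : Diag W W) = a := comp_id a

theorem ofEquiv_mul (π σ : Equiv.Perm V) : ofEquiv π * ofEquiv σ = ofEquiv (σ * π) :=
  ofEquiv_comp π σ

theorem ofEquiv_one : ofEquiv (1 : Equiv.Perm V) = 1 := rfl

theorem ofEquiv_pow (π : Equiv.Perm V) (n : ℕ) : ofEquiv π ^ n = ofEquiv (π ^ n) := by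
  induction n with
  | zero => rfl
  | succ n ih => rw [pow_succ, ih, ofEquiv_mul, pow_succ']

/-- The colour of a point of `V ⊕ W`. -/
def col (f : Set V) (g : Set W) : V ⊕ W → Prop := Sum.elim (· ∈ f) (· ∈ g)

@[simp] theorem col_inl (f : Set V) (g : Set W) (x : V) : col f g (Sum.inl x) ↔ x ∈ f := Iff.rfl
@[simp] theorem col_inr (f : Set V) (g : Set W) (y : W) : col f g (Sum.inr y) ↔ y ∈ g := Iff.rfl

theorem col_compl (f : Set V) (g : Set W) (p : V ⊕ W) : col fᶜ gᶜ p ↔ ¬ col f g p := by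
  rcases p with x | y <;> simp

theorem col_iInter {ι : Type} (F : ι → Set V) (G : ι → Set W) (p : V ⊕ W) :
    col (⋂ i, F i) (⋂ i, G i) p ↔ ∀ i, col (F i) (G i) p := by
  rcases p with x | y <;> simp

/-- The diagram generated by a relation on `V ⊕ W`. -/
def ofRel (r : V ⊕ W → V ⊕ W → Prop) : Diag V W where
  rel f g := ∀ p q, r p q → (col f g p ↔ col f g q)
  compl := by
    intro f g h p q hr
    rw [col_compl, col_compl, h p q hr]
  iInter := by
    intro ι F G h p q hr
    rw [col_iInter, col_iInter]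
    exact forall_congr' fun i => h i p q hr

/-- Being in the same block. -/
def conn (a : Diag V W) : Setoid (V ⊕ W) where
  r p q := ∀ f g, a.rel f g → (col f g p ↔ col f g q)
  iseqv := ⟨fun _ _ _ _ => Iff.rfl, fun h f g hr => (h f g hr).symm,
    fun h h' f g hr => (h f g hr).trans (h' f g hr)⟩

theorem rel_iff (a : Diag V W) (f : Set V) (g : Set W) :
    a.rel f g ↔ ∀ p q, a.conn p q → (col f g p ↔ col f g q) := by
  refine ⟨fun h p q hpq => hpq f g h, fun h => ?_⟩
  have hb : ∀ p : V ⊕ W, a.rel {x | a.conn p (Sum.inl x)} {y | a.conn p (Sum.inr y)} := by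
    intro p
    have := a.iInter (ι := {c : Set V × Set W // a.rel c.1 c.2 ∧ col c.1 c.2 p})
      (fun c => c.1.1) (fun c => c.1.2) (fun c => c.2.1)
    have key : ∀ q : V ⊕ W, a.conn p q ↔
        ∀ c : {c : Set V × Set W // a.rel c.1 c.2 ∧ col c.1 c.2 p}, col c.1.1 c.1.2 q := by
      intro q
      constructor
      · intro hq c
        exact (hq _ _ c.2.1).1 c.2.2
      · intro hq f' g' hr
        constructor
        · intro hp
          exact hq ⟨(f', g'), hr, hp⟩
        · intro hq'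
          by_contra hp
          have := hq ⟨(f'ᶜ, g'ᶜ), a.compl hr, (col_compl _ _ _).2 hp⟩
          exact (col_compl _ _ _).1 this hq'
    convert this using 1
    · ext x
      simpa using key (Sum.inl x)
    · ext y
      simpa using key (Sum.inr y)
  have := a.rel_iUnion (ι := {p : V ⊕ W // col f g p})
    (fun p => {x | a.conn p.1 (Sum.inl x)}) (fun p => {y | a.conn p.1 (Sum.inr y)})
    (fun p => hb p.1)
  convert this using 1
  · ext x
    simp only [mem_iUnion, mem_setOf_eq]
    constructor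
    · intro hx
      exact ⟨⟨Sum.inl x, hx⟩, a.conn.refl' _⟩
    · rintro ⟨p, hp⟩
      exact (h _ _ hp).1 p.2
  · ext y
    simp only [mem_iUnion, mem_setOf_eq]
    constructor
    · intro hy
      exact ⟨⟨Sum.inr y, hy⟩, a.conn.refl' _⟩
    · rintro ⟨p, hp⟩
      exact (h _ _ hp).1 p.2

/-- `a` factors through a set with `n` elements. -/
def Fac (a : Diag V W) (n : ℕ) : Prop :=
  ∃ (P : Type) (_ : Finite P) (s : Diag V P) (t : Diag P W), a = s.comp t ∧ Nat.card P = n

theorem Fac.comp_left {a : Diag V W} {n : ℕ} (h : a.Fac n) (u : Diag U V) : (u.comp a).Fac n := by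
  obtain ⟨P, hP, s, t, rfl, hn⟩ := h
  exact ⟨P, hP, u.comp s, t, (comp_assoc _ _ _).symm, hn⟩

theorem Fac.comp_right {a : Diag V W} {n : ℕ} (h : a.Fac n) (v : Diag W X) :
    (a.comp v).Fac n := by
  obtain ⟨P, hP, s, t, rfl, hn⟩ := h
  exact ⟨P, hP, s, t.comp v, comp_assoc _ _ _, hn⟩

theorem perm_or_fac [Finite V] (a : Diag V V) :
    (∃ π : Equiv.Perm V, a = ofEquiv π) ∨ ∃ n < Nat.card V, a.Fac n := by
  classical
  let Z := Quotient a.conn
  let mk : V ⊕ V → Z := Quotient.mk a.conn
  have hmk : ∀ p q, mk p = mk q ↔ a.conn p q := fun p q => Quotient.eq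
  let P := {B : Z // (∃ x, mk (Sum.inl x) = B) ∧ ∃ y, mk (Sum.inr y) = B}
  have hPfin : Finite P := inferInstance
  let κs : V ⊕ P → Z := Sum.elim (fun x => mk (Sum.inl x)) Subtype.val
  let κt : P ⊕ V → Z := Sum.elim Subtype.val (fun y => mk (Sum.inr y))
  let s : Diag V P := ofRel fun p q => κs p = κs q
  let t : Diag P V := ofRel fun p q => κt p = κt q
  have hst : a = s.comp t := by
    ext f g
    rw [rel_iff]
    constructor
    · intro h
      refine ⟨{B | ∃ x, mk (Sum.inl x) = B.1 ∧ x ∈ f}, ?_, ?_⟩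
      · have aux : ∀ (x : V) (B : P), mk (Sum.inl x) = B.1 →
            (x ∈ f ↔ ∃ x, mk (Sum.inl x) = B.1 ∧ x ∈ f) := by
          intro x B hx
          refine ⟨fun hf => ⟨x, hx, hf⟩, ?_⟩
          rintro ⟨x', hx', hf⟩
          exact (h _ _ ((hmk _ _).1 (hx'.trans hx.symm))).1 hf
        rintro (x | B) (x' | B') hpq
        · exact h _ _ ((hmk _ _).1 hpq)
        · exact aux x B' hpq
        · exact (aux x' B hpq.symm).symm
        · have : B = B' := Subtype.ext hpq
          rw [this]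
      · have aux : ∀ (y : V) (B : P), mk (Sum.inr y) = B.1 →
            ((∃ x, mk (Sum.inl x) = B.1 ∧ x ∈ f) ↔ y ∈ g) := by
          intro y B hy
          constructor
          · rintro ⟨x', hx', hf⟩
            exact (h _ _ ((hmk _ _).1 (hx'.trans hy.symm))).1 hf
          · intro hg
            obtain ⟨x, hx⟩ := B.2.1
            exact ⟨x, hx, (h _ _ ((hmk _ _).1 (hx.trans hy.symm))).2 hg⟩
        rintro (B | y) (B' | y') hpq
        · have : B = B' := Subtype.ext hpq
          rw [this]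
        · exact aux y' B hpq.symm
        · exact (aux y B' hpq).symm
        · exact h _ _ ((hmk _ _).1 hpq)
    · rintro ⟨A, h1, h2⟩
      have aux : ∀ x y, a.conn (Sum.inl x) (Sum.inr y) → (x ∈ f ↔ y ∈ g) := by
        intro x y hxy
        let B : P := ⟨mk (Sum.inl x), ⟨x, rfl⟩, ⟨y, ((hmk _ _).2 hxy).symm⟩⟩
        exact (h1 (Sum.inl x) (Sum.inr B) rfl).trans
          (h2 (Sum.inl B) (Sum.inr y) ((hmk _ _).2 hxy))
      rintro (x | y) (x' | y') hpq
      · exact h1 (Sum.inl x) (Sum.inl x') ((hmk _ _).2 hpq)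
      · exact aux x y' hpq
      · exact (aux x' y (a.conn.symm' hpq)).symm
      · exact h2 (Sum.inr y) (Sum.inr y') ((hmk _ _).2 hpq)
  by_cases hlt : Nat.card P < Nat.card V
  · exact Or.inr ⟨_, hlt, P, hPfin, s, t, hst, rfl⟩
  left
  choose top htop using fun B : P => B.2.1
  choose bot hbot using fun B : P => B.2.2
  have itop : Function.Injective top := fun B B' h =>
    Subtype.ext (by rw [← htop B, ← htop B', h])
  have ibot : Function.Injective bot := fun B B' h =>
    Subtype.ext (by rw [← hbot B, ← hbot B', h])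
  have hcard : Nat.card P = Nat.card V :=
    le_antisymm (Nat.card_le_card_of_injective top itop) (not_lt.1 hlt)
  have btop : Function.Bijective top := (Nat.bijective_iff_injective_and_card top).2 ⟨itop, hcard⟩
  have bbot : Function.Bijective bot := (Nat.bijective_iff_injective_and_card bot).2 ⟨ibot, hcard⟩
  let et := Equiv.ofBijective top btop
  let eb := Equiv.ofBijective bot bbot
  refine ⟨et.symm.trans eb, ?_⟩
  ext f g
  rw [rel_iff]
  have hB : ∀ B : P, (et.symm.trans eb) (top B) = bot B := by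
    intro B
    have : et.symm (top B) = B := et.symm_apply_apply B
    simp only [Equiv.trans_apply, this]
    rfl
  constructor
  · intro h x
    obtain ⟨B, rfl⟩ := btop.2 x
    rw [hB]
    exact h (Sum.inl (top B)) (Sum.inr (bot B)) ((hmk _ _).1 ((htop B).trans (hbot B).symm))
  · intro h
    have h' : ∀ B : P, top B ∈ f ↔ bot B ∈ g := fun B => by
      have := h (top B)
      rwa [hB] at this
    have key : ∀ p : V ⊕ V, ∃ B : P, mk p = B.1 ∧ (col f g p ↔ top B ∈ f) := by
      rintro (x | y)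
      · obtain ⟨B, rfl⟩ := btop.2 x
        exact ⟨B, htop B, Iff.rfl⟩
      · obtain ⟨B, rfl⟩ := bbot.2 y
        exact ⟨B, hbot B, (h' B).symm⟩
    intro p q hpq
    obtain ⟨B, hB1, hB2⟩ := key p
    obtain ⟨B', hB1', hB2'⟩ := key q
    have : B = B' := Subtype.ext (by rw [← hB1, ← hB1']; exact (hmk _ _).2 hpq)
    rw [hB2, hB2', this]

/-- `{x, y}` is a block of `a`. -/
def Good (a : Diag V W) (x : V) (y : W) : Prop :=
  a.rel {x} {y} ∧ ∀ f g, a.rel f g → (x ∈ f ↔ y ∈ g)

/-- The points whose vertical pair is not a block. -/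
def supp (a : Diag V V) : Set V := {x | ¬ a.Good x x}

/-- `a` and `b` have the same colourings avoiding `T`. -/
def Agree (a b : Diag V V) (T : Set V) : Prop :=
  ∀ f g, Disjoint f T → Disjoint g T → (a.rel f g ↔ b.rel f g)

theorem rel_diag (a : Diag V V) (d : Set V) (hd : Disjoint d a.supp) : a.rel d d := by
  have := a.rel_iUnion (ι := d) (fun x => {x.1}) (fun x => {x.1}) (fun x => by
    have : x.1 ∉ a.supp := Set.disjoint_left.1 hd x.2
    exact (not_not.1 this).1)
  simpa using this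

theorem agree_one (a : Diag V V) : Agree a 1 a.supp := by
  intro f g hf hg
  constructor
  · intro h x
    by_cases hx : x ∈ a.supp
    · exact iff_of_false (fun h' => Set.disjoint_left.1 hf h' hx)
        (fun h' => Set.disjoint_left.1 hg h' hx)
    · exact (not_not.1 hx).2 f g h
  · intro h
    have : f = g := Set.ext h
    subst this
    exact a.rel_diag f hf

theorem eq_one_of_supp_empty (a : Diag V V) (h : a.supp = ∅) : a = 1 := by
  ext f g
  exact agree_one a f g (by simp [h]) (by simp [h])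

theorem ncard_meets_le [Finite V] (d : U → Set V) (hd : Pairwise fun x y => Disjoint (d x) (d y))
    (T : Set V) : {x | ¬ Disjoint (d x) T}.ncard ≤ T.ncard := by
  classical
  rcases isEmpty_or_nonempty V with hV | hV
  · have : {x | ¬ Disjoint (d x) T} = ∅ := by
      ext x
      simp [Set.eq_empty_of_isEmpty T]
    simp [this]
  have h : ∀ x ∈ {x | ¬ Disjoint (d x) T}, ∃ p, p ∈ d x ∧ p ∈ T := fun x hx =>
    Set.not_disjoint_iff.1 hx
  choose! φ hφ using h
  refine Set.ncard_le_ncard_of_injOn φ (fun x hx => (hφ x hx).2) ?_ (Set.toFinite T)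
  intro x hx y hy hxy
  by_contra hne
  exact Set.disjoint_left.1 (hd hne) (hφ x hx).1 (hxy ▸ (hφ y hy).1)

theorem ncard_bad_le [Finite U] [Finite V] (u : Diag U V) (a b : Diag V V) (v : Diag V U)
    (π : Equiv.Perm U) (h : u.comp (b.comp v) = ofEquiv π) (T : Set V) (hab : Agree a b T) :
    {x | ¬ (u.comp (a.comp v)).Good x (π x)}.ncard ≤ 2 * T.ncard := by
  classical
  have h0 : ∀ x, (u.comp (b.comp v)).rel {x} {π x} := by
    intro x
    rw [h]
    intro y
    simp
  choose c1 hu c2 hb hv using h0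
  let d1 : U → Set V := fun x => c1 x \ ⋃ y : {y // y ≠ x}, c1 y
  let d2 : U → Set V := fun x => c2 x \ ⋃ y : {y // y ≠ x}, c2 y
  have hu' : ∀ x, u.rel {x} (d1 x) := by
    intro x
    have := u.rel_diff (hu x) (u.rel_iUnion (fun y : {y // y ≠ x} => {y.1}) _ (fun y => hu y))
    convert this using 1
    ext z
    simp only [mem_singleton_iff, mem_diff, mem_iUnion, not_exists]
    constructor
    · rintro rfl
      exact ⟨rfl, fun y hy => y.2 hy.symm⟩
    · exact fun h => h.1
  have hb' : ∀ x, b.rel (d1 x) (d2 x) := fun x =>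
    b.rel_diff (hb x) (b.rel_iUnion _ _ (fun y : {y // y ≠ x} => hb y))
  have hv' : ∀ x, v.rel (d2 x) {π x} := by
    intro x
    have := v.rel_diff (hv x) (v.rel_iUnion _ (fun y : {y // y ≠ x} => {π y.1}) (fun y => hv y))
    convert this using 1
    ext z
    simp only [mem_singleton_iff, mem_diff, mem_iUnion, not_exists]
    constructor
    · rintro rfl
      exact ⟨rfl, fun y hy => y.2 (π.injective hy).symm⟩
    · exact fun h => h.1
  have hd1 : Pairwise fun x y => Disjoint (d1 x) (d1 y) := by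
    intro x y hxy
    rw [Set.disjoint_left]
    rintro p ⟨hp, -⟩ ⟨-, hq⟩
    exact hq (mem_iUnion.2 ⟨⟨x, hxy⟩, hp⟩)
  have hd2 : Pairwise fun x y => Disjoint (d2 x) (d2 y) := by
    intro x y hxy
    rw [Set.disjoint_left]
    rintro p ⟨hp, -⟩ ⟨-, hq⟩
    exact hq (mem_iUnion.2 ⟨⟨x, hxy⟩, hp⟩)
  have hsub : {x | ¬ (u.comp (a.comp v)).Good x (π x)} ⊆
      {x | ¬ Disjoint (d1 x) T} ∪ {x | ¬ Disjoint (d2 x) T} := by
    intro x hx
    by_contra hcon
    simp only [mem_union, mem_setOf_eq, not_or, not_not] at hcon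
    obtain ⟨h1, h2⟩ := hcon
    have ha : a.rel (d1 x) (d2 x) := (hab _ _ h1 h2).2 (hb' x)
    apply hx
    refine ⟨⟨d1 x, hu' x, d2 x, ha, hv' x⟩, ?_⟩
    rintro f g ⟨k1, hk1, k2, hk2, hk3⟩
    have hb2 : b.rel (k1 ∩ d1 x) (k2 ∩ d2 x) :=
      (hab _ _ (h1.mono_left inter_subset_right) (h2.mono_left inter_subset_right)).1
        (a.rel_inter hk2 ha)
    have : (u.comp (b.comp v)).rel (f ∩ {x}) (g ∩ {π x}) :=
      ⟨_, u.rel_inter hk1 (hu' x), _, hb2, v.rel_inter hk3 (hv' x)⟩
    rw [h] at this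
    simpa using this x
  calc _ ≤ ({x | ¬ Disjoint (d1 x) T} ∪ {x | ¬ Disjoint (d2 x) T}).ncard :=
        Set.ncard_le_ncard hsub (Set.toFinite _)
    _ ≤ {x | ¬ Disjoint (d1 x) T}.ncard + {x | ¬ Disjoint (d2 x) T}.ncard :=
        Set.ncard_union_le _ _
    _ ≤ T.ncard + T.ncard := add_le_add (ncard_meets_le d1 hd1 T) (ncard_meets_le d2 hd2 T)
    _ = 2 * T.ncard := by ring

theorem good_mul_inv (a : Diag V V) (π : Equiv.Perm V) (x : V) (h : a.Good x (π x)) :
    (a * ofEquiv π⁻¹).Good x x := by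
  refine ⟨⟨{π x}, h.1, fun y => ?_⟩, ?_⟩
  · simp only [mem_singleton_iff]
    constructor
    · rintro rfl
      simp
    · rintro rfl
      simp
  · rintro f g ⟨k, h1, h2⟩
    rw [h.2 f k h1, h2 (π x)]
    simp

/-- Conjugation of a diagram by a permutation. -/
theorem rel_conj (y : Diag V V) (γ : Equiv.Perm V) (f g : Set V) :
    (ofEquiv γ * y * ofEquiv γ⁻¹).rel f g ↔ y.rel (γ '' f) (γ '' g) := by
  constructor
  · rintro ⟨g', ⟨f', h1, h2⟩, h3⟩
    have e1 : γ '' f = f' := by
      ext p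
      obtain ⟨x, rfl⟩ := γ.surjective p
      rw [γ.injective.mem_set_image]
      exact h1 x
    have e2 : γ '' g = g' := by
      ext p
      obtain ⟨x, rfl⟩ := γ.surjective p
      rw [γ.injective.mem_set_image]
      simpa using (h3 (γ x)).symm
    rwa [e1, e2]
  · intro h
    refine ⟨γ '' g, ⟨γ '' f, fun x => (γ.injective.mem_set_image).symm, h⟩, fun p => ?_⟩
    obtain ⟨x, rfl⟩ := γ.surjective p
    rw [γ.injective.mem_set_image]
    simp

theorem mem_supp_conj (y : Diag V V) (γ : Equiv.Perm V) (x : V) :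
    x ∈ (ofEquiv γ * y * ofEquiv γ⁻¹).supp ↔ γ x ∈ y.supp := by
  simp only [supp, mem_setOf_eq, Good, rel_conj, image_singleton]
  refine not_congr (and_congr Iff.rfl ⟨fun h f g hr => ?_, fun h f g hr => ?_⟩)
  · have := h (γ ⁻¹' f) (γ ⁻¹' g) (by
      rwa [Set.image_preimage_eq _ γ.surjective, Set.image_preimage_eq _ γ.surjective])
    simpa using this
  · have := h _ _ hr
    rwa [γ.injective.mem_set_image, γ.injective.mem_set_image] at this

theorem rel_of_conj (y y' : Diag V V) (γ : Equiv.Perm V)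
    (hr : ∀ f g, y'.rel f g ↔ y.rel (γ '' f) (γ '' g))
    (hs : ∀ x, x ∈ y'.supp ↔ γ x ∈ y.supp) (f g : Set V)
    (hf : Disjoint f ((y.supp ∪ y'.supp) ∩ {x | γ x ≠ x}))
    (hg : Disjoint g ((y.supp ∪ y'.supp) ∩ {x | γ x ≠ x})) (h : y.rel f g) : y'.rel f g := by
  have hfg : f \ y.supp = g \ y.supp := by
    ext x
    constructor
    · rintro ⟨h1, h2⟩
      exact ⟨((not_not.1 h2).2 f g h).1 h1, h2⟩
    · rintro ⟨h1, h2⟩
      exact ⟨((not_not.1 h2).2 f g h).2 h1, h2⟩
  have h0 : y.rel (f \ y.supp) (g \ y.supp) := by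
    rw [← hfg]
    exact y.rel_diag _ disjoint_sdiff_left
  have h1 : y.rel (f ∩ y.supp) (g ∩ y.supp) := by
    have := y.rel_diff h h0
    simpa using this
  have fix : ∀ k : Set V, Disjoint k ((y.supp ∪ y'.supp) ∩ {x | γ x ≠ x}) →
      γ '' (k ∩ y.supp) = k ∩ y.supp := by
    intro k hk
    have : ∀ x ∈ k ∩ y.supp, γ x = x := by
      intro x hx
      by_contra hne
      exact Set.disjoint_left.1 hk hx.1 ⟨Or.inl hx.2, hne⟩
    rw [Set.image_congr this, Set.image_id']
  have h1' : y'.rel (f ∩ y.supp) (g ∩ y.supp) := by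
    rw [hr, fix f hf, fix g hg]
    exact h1
  have h0' : y'.rel (f \ y.supp) (g \ y.supp) := by
    rw [← hfg]
    refine y'.rel_diag _ ?_
    rw [Set.disjoint_left]
    rintro x ⟨hx1, hx2⟩ hx3
    by_cases hne : γ x = x
    · have := (hs x).1 hx3
      rw [hne] at this
      exact hx2 this
    · exact Set.disjoint_left.1 hf hx1 ⟨Or.inr hx3, hne⟩
  have := y'.rel_union h1' h0'
  simpa using this

theorem agree_conj (y : Diag V V) (γ : Equiv.Perm V) :
    Agree y (ofEquiv γ * y * ofEquiv γ⁻¹)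
      ((y.supp ∪ (ofEquiv γ * y * ofEquiv γ⁻¹).supp) ∩ {x | γ x ≠ x}) := by
  intro f g hf hg
  constructor
  · exact rel_of_conj y _ γ (rel_conj y γ) (mem_supp_conj y γ) f g hf hg
  · have hmov : {x | γ⁻¹ x ≠ x} = {x | γ x ≠ x} := by
      ext x
      simp only [mem_setOf_eq, ne_eq, Equiv.Perm.inv_eq_iff_eq]
      exact not_congr eq_comm
    refine rel_of_conj _ y γ⁻¹ (fun f g => ?_) (fun x => ?_) f g ?_ ?_
    · rw [rel_conj, Set.image_image, Set.image_image]
      simp
    · rw [mem_supp_conj]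
      simp
    · rwa [hmov, union_comm]
    · rwa [hmov, union_comm]

theorem ncard_conj_le [Finite V] (y : Diag V V) (γ : Equiv.Perm V) :
    ((y.supp ∪ (ofEquiv γ * y * ofEquiv γ⁻¹).supp) ∩ {x | γ x ≠ x}).ncard ≤
      2 * (y.supp ∩ {x | γ x ≠ x}).ncard := by
  rw [union_inter_distrib_right, two_mul]
  refine (Set.ncard_union_le _ _).trans (add_le_add le_rfl ?_)
  refine Set.ncard_le_ncard_of_injOn γ ?_ γ.injective.injOn (Set.toFinite _)
  rintro x ⟨h1, h2⟩
  exact ⟨(mem_supp_conj y γ x).1 h1, fun h => h2 (γ.injective h)⟩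

end Diag

end Vale.Agent.P343
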