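import Vale.Agent.P343.Diag

/-! Monoids of partition diagrams mapping onto monoids of binary relations. -/

namespace Vale.Agent.P343

open Set Diag

variable {H : Type}

/-- The identity relation on `K`. -/
def idOn (K : Set H) : H → H → Prop := fun x y => x ∈ K ∧ x = y

/-- Restriction of a relation to `K`. -/
def res (K : Set H) (A : H → H → Prop) : H → H → Prop := fun x y => x ∈ K ∧ y ∈ K ∧ A x y

/-- The graph of `σ` on `K`. -/
def gr (K : Set H) (σ : H → H) : H → H → Prop := fun x y => x ∈ K ∧ σ x = y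

/-- A monoid of diagrams on `V` mapping onto the monoid of relations on `K`. -/
structure Rep (K : Set H) (V : Type) where
  N : Diag V V → (H → H → Prop) → Prop
  one : N 1 (idOn K)
  mul : ∀ {a b A B}, N a A → N b B → N (a * b) (Relation.Comp A B)
  surj : ∀ A : H → H → Prop, (∀ x y, A x y → x ∈ K ∧ y ∈ K) → ∃ a, N a A
  func : ∀ {a A B}, N a A → N a B → A = B

namespace Rep

variable {K : Set H} {V : Type}

/-- Every lift of the identity is a permutation. -/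
def Normal (ρ : Rep K V) : Prop := ∀ a, ρ.N a (idOn K) → ∃ π : Equiv.Perm V, a = ofEquiv π

theorem idOn_comp (K : Set H) : Relation.Comp (idOn K) (idOn K) = idOn K := by
  ext x y
  constructor
  · rintro ⟨z, ⟨h1, rfl⟩, -, rfl⟩
    exact ⟨h1, rfl⟩
  · rintro ⟨h1, rfl⟩
    exact ⟨x, ⟨h1, rfl⟩, h1, rfl⟩

theorem sandwich (K : Set H) (A : H → H → Prop) :
    Relation.Comp (Relation.Comp (idOn K) A) (idOn K) = res K A := by
  ext x y
  constructor
  · rintro ⟨z, ⟨w, ⟨h1, rfl⟩, h2⟩, h3, rfl⟩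
    exact ⟨h1, h3, h2⟩
  · rintro ⟨h1, h2, h3⟩
    exact ⟨y, ⟨x, ⟨h1, rfl⟩, h3⟩, h2, rfl⟩

theorem pow_succ_idOn (ρ : Rep K V) {K' : Set H} {a : Diag V V} (h : ρ.N a (idOn K')) (n : ℕ) :
    ρ.N (a ^ (n + 1)) (idOn K') := by
  induction n with
  | zero => simpa using h
  | succ n ih =>
    rw [pow_succ, ← idOn_comp K']
    exact ρ.mul ih h

theorem inv_idOn [Finite V] (ρ : Rep K V) {π : Equiv.Perm V} (h : ρ.N (ofEquiv π) (idOn K)) :
    ρ.N (ofEquiv π⁻¹) (idOn K) := by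
  have hpos : 0 < orderOf π := orderOf_pos π
  have h2 := ρ.pow_succ_idOn h (2 * orderOf π - 2)
  rw [ofEquiv_pow] at h2
  have : π ^ (2 * orderOf π - 2 + 1) = π⁻¹ := by
    rw [eq_inv_iff_mul_eq_one, ← pow_succ]
    have : 2 * orderOf π - 2 + 1 + 1 = orderOf π * 2 := by omega
    rw [this, pow_mul, pow_orderOf_eq_one, one_pow]
  rwa [this] at h2

theorem restrict [Finite V] (ρ : Rep K V) {K' : Set H} (hK : K' ⊆ K) :
    ∃ (V' : Type) (_ : Finite V') (ρ' : Rep K' V') (s : Diag V V') (t : Diag V' V),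
      Nat.card V' ≤ Nat.card V ∧ ρ'.Normal ∧
      ∀ a A, ρ.N a A → ρ'.N (t.comp (a.comp s)) (res K' A) := by
  classical
  obtain ⟨e0, he0⟩ := ρ.surj (idOn K') (by
    rintro x y ⟨h, rfl⟩
    exact ⟨hK h, hK h⟩)
  have hex : ∃ n, ∃ e, ρ.N e (idOn K') ∧ e.Fac n :=
    ⟨_, e0, he0, V, inferInstance, e0, 1, (comp_one _).symm, rfl⟩
  have hmin : ∀ {n e}, ρ.N e (idOn K') → e.Fac n → Nat.find hex ≤ n :=
    fun {n e} h1 h2 => Nat.find_min' hex ⟨e, h1, h2⟩
  obtain ⟨e, he, P, hP, s, t, hst, hn⟩ := Nat.find_spec hex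
  have hle : Nat.card P ≤ Nat.card V := by
    rw [hn]
    exact hmin he0 ⟨V, inferInstance, e0, 1, (comp_one _).symm, rfl⟩
  have hperm : ∀ (X : Diag P P) (t' : Diag P V), ρ.N (s.comp (X.comp t')) (idOn K') →
      ∃ π : Equiv.Perm P, X = ofEquiv π := by
    intro X t' hX
    rcases perm_or_fac X with h | ⟨n, hn', hf⟩
    · exact h
    · have := hmin hX ((hf.comp_right t').comp_left s)
      omega
  have hpow : ∀ n : ℕ, e ^ (n + 1) = s.comp (((t.comp s) ^ n).comp t) := by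
    intro n
    induction n with
    | zero => rw [pow_zero, one_comp, zero_add, pow_one, hst]
    | succ n ih =>
      rw [pow_succ, ih, pow_succ, mul_def, mul_def]
      conv_lhs => rw [hst]
      simp only [comp_assoc]
  obtain ⟨π, hπ⟩ := hperm (t.comp s) t (by
    have := ρ.pow_succ_idOn he 1
    rwa [hpow, pow_one] at this)
  let t' : Diag P V := (ofEquiv π⁻¹).comp t
  have hts : t'.comp s = 1 := by
    simp only [t', comp_assoc, hπ]
    rw [← mul_def, ofEquiv_mul, mul_inv_cancel, ofEquiv_one]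
  have he' : ρ.N (s.comp t') (idOn K') := by
    have hpos : 0 < orderOf π := orderOf_pos π
    have := ρ.pow_succ_idOn he (orderOf π - 1)
    rw [hpow, hπ, ofEquiv_pow] at this
    have h3 : π ^ (orderOf π - 1) = π⁻¹ := by
      rw [eq_inv_iff_mul_eq_one, ← pow_succ]
      have : orderOf π - 1 + 1 = orderOf π := by omega
      rw [this, pow_orderOf_eq_one]
    rwa [h3] at this
  have hsand : ∀ a A, ρ.N a A → ρ.N (s.comp ((t'.comp (a.comp s)).comp t')) (res K' A) := by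
    intro a A h
    have := ρ.mul (ρ.mul he' h) he'
    rw [sandwich] at this
    convert this using 1
    simp only [mul_def, comp_assoc]
  let ρ' : Rep K' P :=
    { N := fun a' A' => ∃ a A, ρ.N a A ∧ a' = t'.comp (a.comp s) ∧ A' = res K' A
      one := by
        refine ⟨1, _, ρ.one, by rw [one_comp, hts], ?_⟩
        ext x y
        constructor
        · rintro ⟨h, rfl⟩
          exact ⟨h, h, hK h, rfl⟩
        · rintro ⟨h, -, -, rfl⟩
          exact ⟨h, rfl⟩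
      mul := by
        rintro _ _ _ _ ⟨a, A, ha, rfl, rfl⟩ ⟨b, B, hb, rfl, rfl⟩
        refine ⟨a * s.comp t' * b, _, ρ.mul (ρ.mul ha he') hb, ?_, ?_⟩
        · simp only [mul_def, comp_assoc]
        · ext x y
          constructor
          · rintro ⟨z, ⟨h1, h2, h3⟩, -, h5, h6⟩
            exact ⟨h1, h5, z, ⟨z, h3, h2, rfl⟩, h6⟩
          · rintro ⟨h1, h2, z, ⟨w, h3, h4, rfl⟩, h6⟩
            exact ⟨w, ⟨h1, h4, h3⟩, h4, h2, h6⟩
      surj := by
        intro A hA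
        obtain ⟨a, ha⟩ := ρ.surj A (fun x y h => ⟨hK (hA x y h).1, hK (hA x y h).2⟩)
        refine ⟨_, a, A, ha, rfl, ?_⟩
        ext x y
        exact ⟨fun h => ⟨(hA x y h).1, (hA x y h).2, h⟩, fun h => h.2.2⟩
      func := by
        rintro _ _ _ ⟨a, A, ha, rfl, rfl⟩ ⟨b, B, hb, hab, rfl⟩
        have h1 := hsand a A ha
        have h2 := hsand b B hb
        rw [← hab] at h2
        exact ρ.func h1 h2 }
  refine ⟨P, hP, ρ', s, t', hle, ?_, fun a A h => ⟨a, A, h, rfl, rfl⟩⟩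
  rintro _ ⟨a, A, ha, rfl, hA⟩
  refine hperm _ t' ?_
  rw [hA]
  exact hsand a A ha

theorem transfer [Finite V] (ρ : Rep K V) {K' : Set H} (hK : K' ⊆ K) (u a b v : Diag V V)
    {A B : H → H → Prop} (ha : ρ.N (u * a * v) A) (hb : ρ.N (u * b * v) B)
    (hB : res K' B = idOn K') (T : Set V) (hab : Agree a b T) :
    ∃ (V' : Type) (_ : Finite V') (ρ' : Rep K' V') (z : Diag V' V'),
      Nat.card V' ≤ Nat.card V ∧ ρ'.Normal ∧ ρ'.N z (res K' A) ∧
      z.supp.ncard ≤ 2 * T.ncard := by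
  obtain ⟨V', hV', ρ', s, t, hle, hN, hres⟩ := ρ.restrict hK
  have h1 := hres _ _ hb
  rw [hB] at h1
  obtain ⟨π, hπ⟩ := hN _ h1
  have h2 := ρ'.mul (hres _ _ ha) (ρ'.inv_idOn (hπ ▸ h1))
  have h3 : Relation.Comp (res K' A) (idOn K') = res K' A := by
    ext x y
    constructor
    · rintro ⟨z, h, -, rfl⟩
      exact h
    · intro h
      exact ⟨y, h, h.2.1, rfl⟩
  rw [h3] at h2
  refine ⟨V', hV', ρ', _, hle, hN, h2, ?_⟩
  have h4 := ncard_bad_le (t.comp u) a b (v.comp s) π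
    (by rw [← hπ]; simp only [mul_def, comp_assoc]) T hab
  refine le_trans (Set.ncard_le_ncard ?_ (Set.toFinite _)) h4
  intro x hx hgood
  apply hx
  apply good_mul_inv
  convert hgood using 1
  simp only [mul_def, comp_assoc]

theorem pow_gr (ρ : Rep K V) {g : Diag V V} {σ : H → H} (hσ : MapsTo σ K K)
    (hg : ρ.N g (gr K σ)) (n : ℕ) : ρ.N (g ^ n) (gr K σ^[n]) := by
  induction n with
  | zero => exact ρ.one
  | succ n ih =>
    have := ρ.mul ih hg
    rw [← pow_succ] at this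
    convert this using 1
    ext x y
    constructor
    · rintro ⟨h1, rfl⟩
      exact ⟨_, ⟨h1, rfl⟩, hσ.iterate n h1, (Function.iterate_succ_apply' σ n x).symm⟩
    · rintro ⟨_, ⟨h1, rfl⟩, -, rfl⟩
      exact ⟨h1, Function.iterate_succ_apply' σ n x⟩

end Rep

/-- The relation `idOn K` with the extra pairs `S × {j}`. -/
def ext1 (K : Set H) (S : Set H) (j : H) : H → H → Prop :=
  fun x y => idOn K x y ∨ (x ∈ S ∧ y = j)

theorem card_primes_le {ι : Type} [Fintype ι] (p : ι → ℕ) (hp : ∀ k, (p k).Prime)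
    (hinj : Function.Injective p) (P t l : ℕ) (hP : ∀ k, P ≤ p k) (hP1 : 1 < P) (hl : 0 < l)
    (hlt : l < P ^ (t + 1)) (s : Finset ι) (hs : ∀ k ∈ s, p k ∣ l) : s.card ≤ t := by
  classical
  have h1 : ∏ q ∈ s.image p, q ∣ l := by
    refine Finset.prod_primes_dvd l ?_ ?_
    · intro q hq
      obtain ⟨k, -, rfl⟩ := Finset.mem_image.1 hq
      exact (hp k).prime
    · intro q hq
      obtain ⟨k, hk, rfl⟩ := Finset.mem_image.1 hq
      exact hs k hk
  have h2 : P ^ (s.image p).card ≤ ∏ q ∈ s.image p, q := by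
    refine Finset.pow_card_le_prod _ _ _ ?_
    intro q hq
    obtain ⟨k, -, rfl⟩ := Finset.mem_image.1 hq
    exact hP k
  rw [Finset.card_image_of_injective _ hinj] at h2
  have h3 : P ^ s.card < P ^ (t + 1) := lt_of_le_of_lt (h2.trans (Nat.le_of_dvd hl h1)) hlt
  have := (Nat.pow_lt_pow_iff_right hP1).1 h3
  omega

theorem exists_few_moved {V ι : Type} [Finite V] [Fintype ι] [Nonempty ι] (p : ι → ℕ)
    (hp : ∀ k, (p k).Prime) (hinj : Function.Injective p) (P t : ℕ) (hP : ∀ k, P ≤ p k)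
    (hP1 : 1 < P) (hV : Nat.card V < P ^ (t + 1)) (γ : Equiv.Perm V) (S : Set V) :
    ∃ k e, ¬ p k ∣ e ∧ Fintype.card ι * (S ∩ {x | (γ ^ e) x ≠ x}).ncard ≤ t * S.ncard := by
  classical
  have := Fintype.ofFinite V
  have hM : orderOf γ ≠ 0 := (orderOf_pos γ).ne'
  choose a e hnd he using fun k => Nat.exists_eq_pow_mul_and_not_dvd hM (p k) (hp k).ne_one
  have hdiv : ∀ k x, (γ ^ e k) x ≠ x → p k ∣ Function.minimalPeriod γ x := by
    intro k x hx
    by_contra hcon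
    apply hx
    have h1 : Function.minimalPeriod γ x ∣ orderOf γ := by
      apply Function.IsPeriodicPt.minimalPeriod_dvd
      change γ^[orderOf γ] x = x
      rw [← Equiv.Perm.coe_pow, pow_orderOf_eq_one]
      rfl
    rw [he k] at h1
    have h2 : Nat.Coprime (Function.minimalPeriod γ x) (p k ^ a k) :=
      Nat.Coprime.pow_right _ ((Nat.Prime.coprime_iff_not_dvd (hp k)).2 hcon).symm
    have h3 := h2.dvd_of_dvd_mul_left h1
    have h4 := Function.isPeriodicPt_iff_minimalPeriod_dvd.2 h3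
    change γ^[e k] x = x at h4
    rwa [← Equiv.Perm.coe_pow] at h4
  have hcount : ∀ x, (Finset.univ.filter fun k => (γ ^ e k) x ≠ x).card ≤ t := by
    intro x
    refine card_primes_le p hp hinj P t (Function.minimalPeriod γ x) hP hP1 ?_ ?_ _ ?_
    · apply Function.IsPeriodicPt.minimalPeriod_pos (orderOf_pos γ)
      change γ^[orderOf γ] x = x
      rw [← Equiv.Perm.coe_pow, pow_orderOf_eq_one]
      rfl
    · refine lt_of_le_of_lt Function.minimalPeriod_le_card ?_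
      rwa [← Nat.card_eq_fintype_card]
    · intro k hk
      exact hdiv k x (Finset.mem_filter.1 hk).2
  have hsum : ∑ k, (S ∩ {x | (γ ^ e k) x ≠ x}).ncard ≤ t * S.ncard := by
    have e1 : ∀ k, (S ∩ {x | (γ ^ e k) x ≠ x}).ncard =
        ∑ x ∈ S.toFinset, if (γ ^ e k) x ≠ x then 1 else 0 := by
      intro k
      rw [← Finset.card_filter, ← Set.ncard_coe_finset]
      congr 1
      ext x
      simp
    simp only [e1]
    rw [Finset.sum_comm, Set.ncard_eq_toFinset_card', mul_comm, ← smul_eq_mul,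
      ← Finset.sum_const]
    refine Finset.sum_le_sum fun x _ => ?_
    rw [← Finset.card_filter]
    exact hcount x
  obtain ⟨k, -, hk⟩ := Finset.exists_min_image Finset.univ
    (fun k => (S ∩ {x | (γ ^ e k) x ≠ x}).ncard) Finset.univ_nonempty
  refine ⟨k, e k, hnd k, le_trans ?_ hsum⟩
  rw [← Finset.card_univ, ← smul_eq_mul, ← Finset.sum_const]
  exact Finset.sum_le_sum fun k' hk' => hk k' hk'

theorem step {K K0 : Set H} {V ι : Type} [Finite V] [Fintype ι] [Nonempty ι] (p : ι → ℕ)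
    (hp : ∀ k, (p k).Prime) (hinj : Function.Injective p) (P t : ℕ) (hP : ∀ k, P ≤ p k)
    (hP1 : 1 < P) (hV : Nat.card V < P ^ (t + 1)) {α β j : H} (hα : α ∉ K) (hβ : β ∉ K)
    (hαβ : α ≠ β) (i : ι → H) (σ : H → H) (hσ : MapsTo σ K K) (L : ℕ) (hL : 0 < L)
    (hσL : ∀ x ∈ K, σ^[L] x = x) (hi : ∀ k, i k ∈ K) (hj : j ∈ K) (hji : ∀ k, i k ≠ j)
    (hσj : σ j = j) (hK0 : K0 ⊆ K) (hσ0 : ∀ x ∈ K0, σ x = x) (hi0 : ∀ k, i k ∉ K0)
    (hσi : ∀ k k' e, σ^[e] (i k) = i k' → p k ∣ e)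
    (ρ : Rep (insert α (insert β K)) V) (z : Diag V V)
    (hz : ρ.N z (ext1 (insert α (insert β K)) {α} β)) :
    ∃ (k : ι) (V' : Type) (_ : Finite V') (ρ' : Rep (insert (i k) (insert j K0)) V')
      (z' : Diag V' V'), Nat.card V' ≤ Nat.card V ∧
      ρ'.N z' (ext1 (insert (i k) (insert j K0)) {i k} j) ∧
      Fintype.card ι * z'.supp.ncard ≤ 8 * t * z.supp.ncard := by
  classical
  have hKK : K ⊆ insert α (insert β K) := (subset_insert _ _).trans (subset_insert _ _)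
  obtain ⟨u, hu⟩ := ρ.surj (ext1 (insert α (insert β K)) (range i) α) (by
    rintro x y (⟨h, rfl⟩ | ⟨⟨k, rfl⟩, rfl⟩)
    · exact ⟨h, h⟩
    · exact ⟨hKK (hi k), mem_insert _ _⟩)
  obtain ⟨v, hv⟩ := ρ.surj (ext1 (insert α (insert β K)) {β} j) (by
    rintro x y (⟨h, rfl⟩ | ⟨rfl, rfl⟩)
    · exact ⟨h, h⟩
    · exact ⟨mem_insert_of_mem _ (mem_insert _ _), hKK hj⟩)
  obtain ⟨V1, hV1, ρ1, y, hle1, hN1, hy, hys⟩ := ρ.transfer hKK u z 1 v
    (ρ.mul (ρ.mul hu hz) hv) (ρ.mul (ρ.mul hu ρ.one) hv) (by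
      ext x y
      constructor
      · rintro ⟨hx, hy, w, ⟨w', h1, -, rfl⟩, h2⟩
        rcases h1 with ⟨-, rfl⟩ | ⟨-, rfl⟩
        · rcases h2 with ⟨-, rfl⟩ | ⟨rfl, rfl⟩
          · exact ⟨hx, rfl⟩
          · exact absurd hx hβ
        · rcases h2 with ⟨-, rfl⟩ | ⟨h2, rfl⟩
          · exact absurd hy hα
          · exact absurd h2 hαβ
      · rintro ⟨hx, rfl⟩
        exact ⟨hx, hx, x, ⟨x, Or.inl ⟨hKK hx, rfl⟩, hKK hx, rfl⟩, Or.inl ⟨hKK hx, rfl⟩⟩)
    z.supp z.agree_one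
  have hY : res K (Relation.Comp (Relation.Comp (ext1 (insert α (insert β K)) (range i) α)
      (ext1 (insert α (insert β K)) {α} β)) (ext1 (insert α (insert β K)) {β} j)) =
      ext1 K (range i) j := by
    ext x y
    constructor
    · rintro ⟨hx, hy, w, ⟨w', h1, h2⟩, h3⟩
      rcases h1 with ⟨-, rfl⟩ | ⟨h1, rfl⟩
      · rcases h2 with ⟨-, rfl⟩ | ⟨rfl, rfl⟩
        · rcases h3 with ⟨-, rfl⟩ | ⟨rfl, rfl⟩
          · exact Or.inl ⟨hx, rfl⟩
          · exact absurd hx hβ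
        · exact absurd hx hα
      · rcases h2 with ⟨-, rfl⟩ | ⟨-, rfl⟩
        · rcases h3 with ⟨-, rfl⟩ | ⟨h3, rfl⟩
          · exact absurd hy hα
          · exact absurd h3 hαβ
        · rcases h3 with ⟨-, rfl⟩ | ⟨-, rfl⟩
          · exact absurd hy hβ
          · exact Or.inr ⟨h1, rfl⟩
    · rintro (⟨hx, rfl⟩ | ⟨⟨k, rfl⟩, rfl⟩)
      · exact ⟨hx, hx, x, ⟨x, Or.inl ⟨hKK hx, rfl⟩, Or.inl ⟨hKK hx, rfl⟩⟩, Or.inl ⟨hKK hx, rfl⟩⟩
      · exact ⟨hi k, hj, β, ⟨α, Or.inr ⟨⟨k, rfl⟩, rfl⟩, Or.inr ⟨rfl, rfl⟩⟩, Or.inr ⟨rfl, rfl⟩⟩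
  rw [hY] at hy
  obtain ⟨g, hg⟩ := ρ1.surj (gr K σ) (by
    rintro x y ⟨h, rfl⟩
    exact ⟨h, hσ h⟩)
  have hgL : ρ1.N (g ^ L) (idOn K) := by
    convert ρ1.pow_gr hσ hg L using 1
    ext x y
    constructor
    · rintro ⟨h, rfl⟩
      exact ⟨h, hσL x h⟩
    · rintro ⟨h, rfl⟩
      exact ⟨h, (hσL x h).symm⟩
  obtain ⟨γ, rfl⟩ : ∃ γ : Equiv.Perm V1, g = ofEquiv γ := by
    rcases perm_or_fac g with h | ⟨n, hn, hf⟩
    · exact h
    exfalso
    obtain ⟨π, hπ⟩ := hN1 _ hgL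
    obtain ⟨L', rfl⟩ : ∃ L', L = L' + 1 := ⟨L - 1, by omega⟩
    rw [pow_succ'] at hπ
    obtain ⟨Q, hQ, s', t', hst, hn'⟩ := hf.comp_right (g ^ L')
    rw [← mul_def, hπ] at hst
    -- a permutation diagram does not factor through a smaller set
    have h0 : ∀ x, (s'.comp t').rel {x} {π x} := by
      intro x
      rw [← hst]
      intro y
      simp
    choose c hc1 hc2 using h0
    let d : V1 → Set Q := fun x => c x \ ⋃ y : {y // y ≠ x}, c y
    have hd : Pairwise fun x y => Disjoint (d x) (d y) := by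
      intro x y hxy
      rw [Set.disjoint_left]
      rintro p ⟨hp, -⟩ ⟨-, hq⟩
      exact hq (mem_iUnion.2 ⟨⟨x, hxy⟩, hp⟩)
    have hne : ∀ x, ¬ Disjoint (d x) univ := by
      intro x hx
      have hx' : d x = ∅ := by simpa using hx
      have h1 := s'.rel_diff (hc1 x)
        (s'.rel_iUnion (fun y : {y // y ≠ x} => {y.1}) _ (fun y => hc1 y))
      change s'.rel _ (d x) at h1
      rw [hx'] at h1
      have h2 : t'.rel ∅ ∅ := by
        have := t'.rel_diff (hc2 x) (hc2 x)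
        simpa using this
      have h3 : (s'.comp t').rel _ ∅ := ⟨_, h1, h2⟩
      rw [← hst] at h3
      have := (h3 x).1 ⟨rfl, by simpa using fun y hy h => hy (Eq.symm h)⟩
      exact this
    have := ncard_meets_le d hd univ
    simp only [hne, not_false_eq_true, setOf_true, Set.ncard_univ] at this
    omega
  obtain ⟨k, e, hke, hcount⟩ := exists_few_moved p hp hinj P t hP hP1 (lt_of_le_of_lt hle1 hV) γ
    y.supp
  have hM : 0 < orderOf γ := orderOf_pos γ
  have hinv : (γ ^ e)⁻¹ = γ ^ (e * (orderOf γ - 1)) := by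
    rw [inv_eq_iff_mul_eq_one, ← pow_add]
    have : e + e * (orderOf γ - 1) = orderOf γ * e := by
      obtain ⟨m, hm⟩ : ∃ m, orderOf γ = m + 1 := ⟨orderOf γ - 1, by omega⟩
      rw [hm]
      simp only [Nat.add_sub_cancel]
      ring
    rw [this, pow_mul, pow_orderOf_eq_one, one_pow]
  have hg1 := ρ1.pow_gr hσ hg e
  have hg2 := ρ1.pow_gr hσ hg (e * (orderOf γ - 1))
  rw [ofEquiv_pow] at hg1 hg2
  rw [← hinv] at hg2
  have hid : ∀ x ∈ K, σ^[e * (orderOf γ - 1)] (σ^[e] x) = x := by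
    intro x hx
    have h1 := ρ1.mul hg1 hg2
    rw [ofEquiv_mul, inv_mul_cancel, ofEquiv_one] at h1
    have h2 := ρ1.func h1 ρ1.one
    have h3 : idOn K x (σ^[e * (orderOf γ - 1)] (σ^[e] x)) := by
      rw [← h2]
      exact ⟨_, ⟨hx, rfl⟩, hσ.iterate e hx, rfl⟩
    exact h3.2.symm
  have hK' : insert (i k) (insert j K0) ⊆ K := by
    rintro x (rfl | rfl | h)
    · exact hi k
    · exact hj
    · exact hK0 h
  have hfix : ∀ x, σ x = x → ∀ n, σ^[n] x = x := fun x hx n => Function.iterate_fixed hx n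
  obtain ⟨V2, hV2, ρ2, z', hle2, -, hz', hzs⟩ := ρ1.transfer hK' 1 y
    (ofEquiv (γ ^ e) * y * ofEquiv (γ ^ e)⁻¹) 1 (A := ext1 K (range i) j)
    (by simpa using hy) (by simpa using ρ1.mul (ρ1.mul hg1 hy) hg2) (by
      ext x w
      constructor
      · rintro ⟨hx, hw, w1, ⟨w2, ⟨h1, rfl⟩, h2⟩, h3, rfl⟩
        rcases h2 with ⟨-, rfl⟩ | ⟨⟨k', hk'⟩, rfl⟩
        · exact ⟨hx, (hid x h1).symm⟩
        · exfalso
          rcases hx with rfl | rfl | hx
          · exact hke (hσi k k' e hk'.symm)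
          · rw [hfix _ hσj] at hk'
            exact hji k' hk'
          · rw [hfix _ (hσ0 x hx)] at hk'
            exact hi0 k' (hk' ▸ hx)
      · rintro ⟨hx, rfl⟩
        have h1 := hK' hx
        exact ⟨hx, hx, _, ⟨_, ⟨h1, rfl⟩, Or.inl ⟨hσ.iterate e h1, rfl⟩⟩, hσ.iterate e h1,
          hid x h1⟩)
    _ (agree_conj y (γ ^ e))
  refine ⟨k, V2, hV2, ρ2, z', hle2.trans hle1, ?_, ?_⟩
  · convert hz' using 1
    ext x w
    constructor
    · rintro (⟨hx, rfl⟩ | ⟨rfl, rfl⟩)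
      · exact ⟨hx, hx, Or.inl ⟨hK' hx, rfl⟩⟩
      · exact ⟨mem_insert _ _, mem_insert_of_mem _ (mem_insert _ _), Or.inr ⟨⟨k, rfl⟩, rfl⟩⟩
    · rintro ⟨hx, hw, ⟨-, rfl⟩ | ⟨⟨k', rfl⟩, rfl⟩⟩
      · exact Or.inl ⟨hx, rfl⟩
      · rcases hx with h | h | h
        · exact Or.inr ⟨h, rfl⟩
        · exact absurd h (hji k')
        · exact absurd h (hi0 k')
  · have h5 := ncard_conj_le y (γ ^ e)
    calc Fintype.card ι * z'.supp.ncard
        ≤ Fintype.card ι * (2 * (2 * (y.supp ∩ {x | (γ ^ e) x ≠ x}).ncard)) :=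
          Nat.mul_le_mul_left _ (hzs.trans (Nat.mul_le_mul_left _ h5))
      _ = 4 * (Fintype.card ι * (y.supp ∩ {x | (γ ^ e) x ≠ x}).ncard) := by ring
      _ ≤ 4 * (t * y.supp.ncard) := Nat.mul_le_mul_left _ hcount
      _ ≤ 4 * (t * (2 * z.supp.ncard)) :=
          Nat.mul_le_mul_left _ (Nat.mul_le_mul_left _ hys)
      _ = 8 * t * z.supp.ncard := by ring

end Vale.Agent.P343
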